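import Vale.Agent.P078.Limit

/-!
Partitions in a maximal abelian subalgebra `A` of a von Neumann algebra `M`, and weak limits of
pinchings along finer and finer partitions.
-/

namespace Vale.Agent.P078.InM

open scoped InnerProductSpace
open Filter Topology

variable {H : Type*} [NormedAddCommGroup H] [InnerProductSpace ℂ H] [CompleteSpace H]
variable {M : VonNeumannAlgebra H} {A : StarSubalgebra ℂ (H →L[ℂ] H)}

/-- `A` is a maximal abelian selfadjoint subalgebra of `M`: it lies in `M` and equals its relative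
commutant in `M`. -/
structure MasaIn (M : VonNeumannAlgebra H) (A : StarSubalgebra ℂ (H →L[ℂ] H)) : Prop where
  le : ∀ a ∈ A, a ∈ M
  comm : ∀ a ∈ A, ∀ b ∈ A, Commute a b
  mem_of_comm : ∀ a ∈ M, (∀ g ∈ A, g * a = a * g) → a ∈ A

lemma mem_M_iff {a : H →L[ℂ] H} : a ∈ M ↔ ∀ b ∈ M.commutant, b * a = a * b := by
  conv_lhs => rw [← M.commutant_commutant]
  exact VonNeumannAlgebra.mem_commutant_iff

lemma comm_commutant {a b : H →L[ℂ] H} (ha : a ∈ M) (hb : b ∈ M.commutant) : Commute b a :=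
  mem_M_iff.1 ha b hb

lemma MasaIn.mem (hA : MasaIn M A) {a : H →L[ℂ] H} (h : ∀ g ∈ A, g * a = a * g)
    (h' : ∀ b ∈ M.commutant, b * a = a * b) : a ∈ A :=
  hA.mem_of_comm a (mem_M_iff.2 h') h

variable {ι : Type*} [Fintype ι] {c : ι → (H →L[ℂ] H)}

/-- Common refinement of two partitions. -/
lemma isPart_prod (hA : MasaIn M A) (h : IsPart A 1 c)
    {κ : Type*} [Fintype κ] {d : κ → (H →L[ℂ] H)} (h' : IsPart A 1 d) :
    IsPart A 1 (fun p : ι × κ => c p.1 * d p.2) where
  mem p := A.mul_mem (h.mem _) (h'.mem _)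
  proj p := (h.proj _).mul (h'.proj _) (hA.comm _ (h.mem _) _ (h'.mem _))
  orth p p' hpp := by
    have hc : Commute (d p.2) (c p'.1) := hA.comm _ (h'.mem _) _ (h.mem _)
    have key : c p.1 * d p.2 * (c p'.1 * d p'.2) = (c p.1 * c p'.1) * (d p.2 * d p'.2) := by
      rw [mul_assoc, ← mul_assoc (d p.2), hc.eq]
      simp [mul_assoc]
    show c p.1 * d p.2 * (c p'.1 * d p'.2) = 0
    rw [key]
    by_cases h1 : p.1 = p'.1
    · rw [h'.orth p.2 p'.2 (fun h2 => hpp (Prod.ext h1 h2))]; simp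
    · rw [h.orth _ _ h1]; simp
  sum_eq := by
    rw [Fintype.sum_prod_type]
    simp [← Finset.mul_sum, h'.sum_eq, h.sum_eq]

lemma exists_refines (hA : MasaIn M A) (P P' : Ptn A) :
    ∃ Q : Ptn A, (∀ i, ∃ j k, Q.c i = P.c j * P'.c k) ∧
      (∀ R : Ptn A, Refines R Q → Refines R P ∧ Refines R P') := by
  classical
  let f := (Fintype.equivFin (Fin P.n × Fin P'.n)).symm
  refine ⟨⟨_, _, (isPart_prod hA P.isPart P'.isPart).reindex f⟩, fun i => ⟨(f i).1, (f i).2, rfl⟩, ?_⟩
  intro R hR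
  have key : ∀ i j k, (P.c j * P'.c k) * R.c i = R.c i ∨ (P.c j * P'.c k) * R.c i = 0 := by
    intro i j k
    have h1 := hR i (f.symm (j, k))
    simp only [Function.comp_apply, Equiv.apply_symm_apply] at h1
    exact h1
  constructor
  · intro i j
    by_cases h0 : ∀ k, (P.c j * P'.c k) * R.c i = 0
    · right
      have : P.c j * R.c i = ∑ k, (P.c j * P'.c k) * R.c i := by
        rw [← Finset.sum_mul, ← Finset.mul_sum, P'.isPart.sum_eq, mul_one]
      rw [this]; exact Finset.sum_eq_zero fun k _ => h0 k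
    · left
      push Not at h0
      obtain ⟨k, hk⟩ := h0
      have hk' := (key i j k).resolve_right hk
      conv_lhs => rw [← hk']
      rw [← mul_assoc, ← mul_assoc, (P.isPart.proj j).isIdempotentElem.eq, hk']
  · intro i k
    by_cases h0 : ∀ j, (P.c j * P'.c k) * R.c i = 0
    · right
      have : P'.c k * R.c i = ∑ j, (P.c j * P'.c k) * R.c i := by
        rw [← Finset.sum_mul, ← Finset.sum_mul, P.isPart.sum_eq, one_mul]
      rw [this]; exact Finset.sum_eq_zero fun j _ => h0 j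
    · left
      push Not at h0
      obtain ⟨j, hj⟩ := h0
      have hj' := (key i j k).resolve_right hj
      have hc : Commute (P'.c k) (P.c j) := hA.comm _ (P'.isPart.mem k) _ (P.isPart.mem j)
      have e3 : P'.c k * (P.c j * P'.c k * R.c i) = P.c j * P'.c k * R.c i := by
        rw [← mul_assoc, ← mul_assoc, hc.eq, mul_assoc (P.c j),
          (P'.isPart.proj k).isIdempotentElem.eq]
      rwa [hj'] at e3

lemma starProjection_mem (hA : MasaIn M A) (K : Submodule ℂ H)
    [K.HasOrthogonalProjection] (hK : ∀ g ∈ A, ∀ v ∈ K, g v ∈ K)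
    (hK' : ∀ g ∈ M.commutant, ∀ v ∈ K, g v ∈ K) : K.starProjection ∈ A := by
  have key : ∀ g : H →L[ℂ] H, (∀ v ∈ K, g v ∈ K) → (∀ v ∈ K, (star g) v ∈ K) →
      g * K.starProjection = K.starProjection * g := fun g hg1 hg2 => ?_
  · exact hA.mem (fun g hg => key g (hK g hg) (hK _ (star_mem hg)))
      (fun g hg => key g (hK' g hg) (hK' _ (star_mem hg)))
  ext v
  show g (K.starProjection v) = K.starProjection (g v)
  refine (Submodule.eq_starProjection_of_mem_of_inner_eq_zero
    (hg1 _ (K.starProjection_apply_mem v)) fun w hw => ?_).symm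
  rw [← map_sub, ← ContinuousLinearMap.adjoint_inner_right]
  have : ContinuousLinearMap.adjoint g w ∈ K := by
    rw [← ContinuousLinearMap.star_eq_adjoint]
    exact hg2 w hw
  exact Submodule.starProjection_inner_eq_zero v _ this

lemma posAt_mem (hA : MasaIn M A) {g : H →L[ℂ] H} (hg : g ∈ A)
    (t : ℝ) : posAt g t ∈ A :=
  hA.mem (fun b hb => ((hA.comm g hg b hb).cfc_real _).eq.symm)
    fun b hb => ((comm_commutant (hA.le g hg) hb).symm.cfc_real _).eq.symm

lemma exists_kerProj (hA : MasaIn M A) {g : H →L[ℂ] H}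
    (hg : g ∈ A) (t : ℝ) :
    ∃ e ∈ A, IsStarProjection e ∧ (∀ v, posAt g t (e v) = 0) ∧
      ∀ v, posAt g t v = 0 → e v = v := by
  set K : Submodule ℂ H := LinearMap.ker (posAt g t).toLinearMap
  have hmem : ∀ v, v ∈ K ↔ posAt g t v = 0 := fun v => LinearMap.mem_ker
  have : CompleteSpace K := (ContinuousLinearMap.isClosed_ker (posAt g t)).completeSpace_coe
  have inv : ∀ b, Commute (posAt g t) b → ∀ v ∈ K, b v ∈ K := fun b hb v hv => by
    rw [hmem, ← op_mul_apply, hb.eq, op_mul_apply, (hmem v).1 hv, map_zero]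
  exact ⟨K.starProjection, starProjection_mem hA K
      (fun b hb => inv b (hA.comm _ (posAt_mem hA hg t) b hb))
      (fun b hb => inv b (comm_commutant (hA.le _ (posAt_mem hA hg t)) hb).symm),
    isStarProjection_starProjection, fun v => (hmem _).1 (K.starProjection_apply_mem v),
    fun v hv => Submodule.starProjection_eq_self_iff.2 ((hmem v).2 hv)⟩

lemma exists_refines_all (hA : MasaIn M A) (N : ℕ)
    (Ps : ℕ → Ptn A) : ∃ P : Ptn A, ∀ R, Refines R P → ∀ k ≤ N, Refines R (Ps k) := by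
  induction N with
  | zero => exact ⟨Ps 0, fun R hR k hk => by rw [Nat.le_zero.1 hk]; exact hR⟩
  | succ N ih =>
    obtain ⟨P, hP⟩ := ih
    obtain ⟨Q, _, hQ⟩ := exists_refines hA P (Ps (N + 1))
    refine ⟨Q, fun R hR k hk => ?_⟩
    rcases Nat.lt_or_eq_of_le hk with h | h
    · exact hP R (hQ R hR).1 k (Nat.lt_succ_iff.1 h)
    · rw [h]; exact (hQ R hR).2

/-- On the cells of fine partitions a selfadjoint element of `A` is almost scalar. -/
lemma exists_slices (hA : MasaIn M A) {g : H →L[ℂ] H}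
    (hg : g ∈ A) (hgs : IsSelfAdjoint g) {h : ℝ} (hh : 0 < h) :
    ∃ P : Ptn A, ∀ R, Refines R P → ∀ i, ∃ t : ℝ, ‖(g - (t:ℂ) • 1) * R.c i‖ ≤ h := by
  classical
  choose e heA hep he1 he2 using fun t : ℝ => exists_kerProj hA hg t
  let τ : ℕ → ℝ := fun k => -‖g‖ + k * h
  obtain ⟨N, hN⟩ := exists_nat_gt (2 * ‖g‖ / h)
  have hNt : ‖g‖ ≤ τ N := by
    have := (div_lt_iff₀ hh).1 hN
    simp only [τ]; linarith
  obtain ⟨P, hP⟩ := exists_refines_all hA N (fun k => ⟨2, _, isPart_pair (heA (τ k)) (hep (τ k))⟩)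
  refine ⟨P, fun R hR i => ?_⟩
  have spec : ∀ x ∈ spectrum ℝ g, -‖g‖ ≤ x ∧ x ≤ ‖g‖ := by
    intro x hx
    have := norm_apply_le_norm_cfc (id : ℝ → ℝ) g hx
    rw [cfc_id ℝ g, id_eq, Real.norm_eq_abs] at this
    exact abs_le.1 this
  have dich : ∀ k ≤ N, e (τ k) * R.c i = R.c i ∨ e (τ k) * R.c i = 0 := by
    intro k hk
    simpa using hP R hR k hk i 0
  have alg : ∀ t : ℝ, cfc (fun x : ℝ => x - t) g = g - (t:ℂ) • 1 := by
    intro t
    rw [cfc_sub (fun x => x) (fun _ => t) g, cfc_id' ℝ g, cfc_const t g,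
      Algebra.algebraMap_eq_smul_one, ← Complex.coe_smul]
  have top : e (τ N) * R.c i = R.c i := by
    have : posAt g (τ N) = 0 := by
      rw [posAt, ← cfc_zero ℝ g]
      exact cfc_congr fun x hx => by simp; linarith [(spec x hx).2]
    ext v
    exact he2 (τ N) _ (by rw [this]; rfl)
  have hex : ∃ k, e (τ k) * R.c i = R.c i := ⟨N, top⟩
  have hkN : Nat.find hex ≤ N := Nat.find_min' hex top
  have hk := Nat.find_spec hex
  have kill : ∀ v, posAt g (τ (Nat.find hex)) (R.c i v) = 0 := fun v => by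
    have hv : R.c i v = e (τ (Nat.find hex)) (R.c i v) :=
      (congrArg (fun T : H →L[ℂ] H => T v) hk).symm
    exact (congrArg (posAt g (τ (Nat.find hex))) hv).trans (he1 _ _)
  rcases Nat.eq_zero_or_pos (Nat.find hex) with h0 | hpos
  · refine ⟨τ 0, le_of_eq_of_le ?_ hh.le⟩
    have : posAt g (τ 0) = g - (τ 0 : ℂ) • 1 := by
      rw [posAt, ← alg]
      exact cfc_congr fun x hx => max_eq_left (by have := (spec x hx).1; simp [τ]; linarith)
    rw [h0] at kill
    rw [norm_eq_zero]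
    ext v
    rw [← this, op_mul_apply, kill v]; rfl
  · obtain ⟨k, hk'⟩ : ∃ k, Nat.find hex = k + 1 := ⟨Nat.find hex - 1, by omega⟩
    have hzero : e (τ k) * R.c i = 0 :=
      (dich k (by omega)).resolve_left (Nat.find_min hex (by omega))
    refine ⟨τ k, ContinuousLinearMap.opNorm_le_bound _ hh.le fun v => ?_⟩
    rw [hk'] at kill
    set u := R.c i v
    let m : H →L[ℂ] H := cfc (fun x : ℝ => max (τ k - x) 0) g
    have msa : IsSelfAdjoint m := cfc_predicate (R := ℝ) _ g
    have mm : posAt g (τ k) * m = 0 := by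
      rw [posAt, ← cfc_mul _ _ g, ← cfc_zero ℝ g]
      refine cfc_congr fun x _ => ?_
      rcases le_total x (τ k) with hx | hx
      · rw [max_eq_right (by linarith : x - τ k ≤ 0)]; simp
      · rw [max_eq_right (by linarith : τ k - x ≤ 0)]; simp
    have mu : m u = 0 := by
      have hw : posAt g (τ k) (m (m u)) = 0 := by
        rw [← op_mul_apply, mm]; rfl
      rw [← inner_self_eq_zero (𝕜 := ℂ), sa_inner msa, ← he2 _ _ hw,
        ← sa_inner (hep _).isSelfAdjoint]
      have : e (τ k) u = 0 := by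
        show e (τ k) (R.c i v) = 0
        rw [← op_mul_apply, hzero]; rfl
      rw [this, inner_zero_left]
    have split : g - (τ k : ℂ) • 1 = posAt g (τ k) - m := by
      rw [← alg, posAt, ← cfc_sub _ _ g]
      refine cfc_congr fun x _ => ?_
      rcases le_total x (τ k) with hx | hx
      · rw [max_eq_right (by linarith : x - τ k ≤ 0), max_eq_left (by linarith : 0 ≤ τ k - x)]
        ring
      · rw [max_eq_left (by linarith : 0 ≤ x - τ k), max_eq_right (by linarith : τ k - x ≤ 0)]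
        ring
    have hτ : τ (k + 1) = τ k + h := by simp [τ]; ring
    have hn : ‖posAt g (τ k) - posAt g (τ (k + 1))‖ ≤ h := by
      rw [posAt, posAt, ← cfc_sub _ _ g]
      refine norm_cfc_le hh.le fun x _ => ?_
      rw [Real.norm_eq_abs]
      refine (abs_max_sub_max_le_abs _ _ _).trans ?_
      rw [hτ]; simp [abs_of_pos hh]
    calc ‖((g - (τ k : ℂ) • 1) * R.c i) v‖
        = ‖(posAt g (τ k) - posAt g (τ (k + 1))) u‖ := by
          have k2 : posAt g (τ (k + 1)) u = 0 := kill v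
          rw [op_mul_apply, split, sub_apply, sub_apply, mu, k2]
      _ ≤ ‖posAt g (τ k) - posAt g (τ (k + 1))‖ * ‖u‖ := ContinuousLinearMap.le_opNorm _ _
      _ ≤ h * ‖v‖ := mul_le_mul hn (proj_norm_apply_le (R.isPart.proj i) v) (norm_nonneg _) hh.le

/-- A weak limit `E ∈ A` of the pinchings of `x` along an ultrafilter of refining partitions. -/
lemma exists_limit (hA : MasaIn M A) (x : H →L[ℂ] H)
    (hxM : x ∈ M) :
    ∃ (U : Ultrafilter (Ptn A)) (E : H →L[ℂ] H), (∀ P, ∀ᶠ R in (U : Filter (Ptn A)), Refines R P) ∧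
      E ∈ A ∧ ‖E‖ ≤ ‖x‖ ∧ (IsSelfAdjoint x → IsSelfAdjoint E) ∧
      ∀ u v, Tendsto (fun R : Ptn A => ⟪pinch R.c x u, v⟫_ℂ) (U : Filter (Ptn A)) (𝓝 ⟪E u, v⟫_ℂ) := by
  classical
  have hdir : Directed (· ≥ ·) fun P : Ptn A => 𝓟 {R | Refines R P} := by
    intro P P'
    obtain ⟨Q, _, hQ⟩ := exists_refines hA P P'
    exact ⟨Q, principal_mono.2 fun R hR => (hQ R hR).1, principal_mono.2 fun R hR => (hQ R hR).2⟩
  have : Nonempty (Ptn A) := ⟨⟨1, _, isPart_one⟩⟩
  have hne : NeBot (⨅ P : Ptn A, 𝓟 {R | Refines R P}) :=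
    iInf_neBot_of_directed hdir fun P => principal_neBot_iff.2 ⟨P, refines_refl P⟩
  let U := Ultrafilter.of (⨅ P : Ptn A, 𝓟 {R | Refines R P})
  have hU : ∀ P, ∀ᶠ R in (U : Filter (Ptn A)), Refines R P := fun P =>
    Ultrafilter.of_le _ (mem_iInf_of_mem P (mem_principal_self _))
  have bd : ∀ (u v : H) (R : Ptn A), ‖⟪pinch R.c x u, v⟫_ℂ‖ ≤ ‖x‖ * ‖u‖ * ‖v‖ := fun u v R =>
    (norm_inner_le_norm _ _).trans (mul_le_mul_of_nonneg_right
      ((ContinuousLinearMap.le_opNorm _ _).trans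
        (mul_le_mul_of_nonneg_right (norm_pinch_le R.isPart x) (norm_nonneg _))) (norm_nonneg _))
  have ex : ∀ u v : H, ∃ l : ℂ, ‖l‖ ≤ ‖x‖ * ‖u‖ * ‖v‖ ∧
      Tendsto (fun R : Ptn A => ⟪pinch R.c x u, v⟫_ℂ) (U : Filter (Ptn A)) (𝓝 l) := by
    intro u v
    obtain ⟨l, hl, hlim⟩ := (isCompact_closedBall (0:ℂ) (‖x‖ * ‖u‖ * ‖v‖)).ultrafilter_le_nhds
      (U.map fun R => ⟪pinch R.c x u, v⟫_ℂ) (by
        rw [Ultrafilter.coe_map, le_principal_iff, mem_map]
        exact Eventually.of_forall fun R => mem_closedBall_zero_iff.2 (bd u v R))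
    exact ⟨l, mem_closedBall_zero_iff.1 hl, hlim⟩
  choose l hlb hlt using ex
  let L : H →ₗ⋆[ℂ] H →ₗ[ℂ] ℂ := LinearMap.mk₂'ₛₗ (starRingEnd ℂ) (RingHom.id ℂ) l
    (fun u u' v => tendsto_nhds_unique (hlt _ _) (by
      simpa [inner_add_left] using (hlt u v).add (hlt u' v)))
    (fun c u v => tendsto_nhds_unique (hlt _ _) (by
      simpa [inner_smul_left, mul_comm] using (hlt u v).const_mul (starRingEnd ℂ c)))
    (fun u v v' => tendsto_nhds_unique (hlt _ _) (by
      simpa [inner_add_right] using (hlt u v).add (hlt u v')))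
    (fun c u v => tendsto_nhds_unique (hlt _ _) (by
      simpa [inner_smul_right] using (hlt u v).const_mul c))
  let B : H →L⋆[ℂ] H →L[ℂ] ℂ := LinearMap.mkContinuous₂ L ‖x‖ fun u v => hlb u v
  let E := InnerProductSpace.continuousLinearMapOfBilin B
  have hE : ∀ u v, ⟪E u, v⟫_ℂ = l u v := fun u v => by
    rw [InnerProductSpace.continuousLinearMapOfBilin_apply]; rfl
  have hT : ∀ u v, Tendsto (fun R : Ptn A => ⟪pinch R.c x u, v⟫_ℂ) (U : Filter (Ptn A))
      (𝓝 ⟪E u, v⟫_ℂ) := fun u v => by rw [hE]; exact hlt u v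
  have comm_sa : ∀ g ∈ A, IsSelfAdjoint g → g * E = E * g := by
    intro g hg hgs
    rw [← sub_eq_zero]
    ext u
    refine ext_inner_right ℂ fun v => ?_
    simp only [sub_apply, op_mul_apply, zero_apply, inner_zero_left, inner_sub_left,
      sa_inner hgs]
    rw [← norm_eq_zero]
    refine le_antisymm (le_of_forall_pos_le_add fun a ha => ?_) (norm_nonneg _)
    rw [zero_add]
    set h := a / (2 * ‖x‖ * ‖u‖ * ‖v‖ + 1) with hh'
    have hh : 0 < h := by positivity
    obtain ⟨P, hP⟩ := exists_slices hA hg hgs hh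
    refine le_of_tendsto ((hT u (g v)).sub (hT (g u) v)).norm ?_
    filter_upwards [hU P] with R hR
    choose t ht using hP R hR
    let S : Fin R.n → (H →L[ℂ] H) := fun i =>
      (g - (t i : ℂ) • 1) * R.c i * x - x * ((g - (t i : ℂ) • 1) * R.c i)
    have hS : ∀ i, ‖S i‖ ≤ 2 * h * ‖x‖ := fun i => by
      refine (norm_sub_le _ _).trans ?_
      calc _ ≤ ‖(g - (t i : ℂ) • 1) * R.c i‖ * ‖x‖ + ‖x‖ * ‖(g - (t i : ℂ) • 1) * R.c i‖ :=
            add_le_add (norm_mul_le _ _) (norm_mul_le _ _)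
        _ ≤ h * ‖x‖ + ‖x‖ * h := by gcongr <;> exact ht i
        _ = _ := by ring
    have key : g * pinch R.c x - pinch R.c x * g = ∑ i, R.c i * S i * R.c i := by
      rw [pinch, Finset.mul_sum, Finset.sum_mul, ← Finset.sum_sub_distrib]
      refine Finset.sum_congr rfl fun i _ => ?_
      have c1 : R.c i * g = g * R.c i := (hA.comm _ (R.isPart.mem i) _ hg).eq
      have c2 : R.c i * R.c i = R.c i := (R.isPart.proj i).isIdempotentElem
      simp only [S, sub_mul, mul_sub, smul_mul_assoc, one_mul, mul_smul_comm, mul_assoc, c2]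
      simp only [← mul_assoc, c1, c2]
      simp only [mul_assoc, c2, c1]
      abel
    rw [← sa_inner hgs, ← inner_sub_left, ← op_mul_apply, ← op_mul_apply, ← sub_apply, key]
    calc _ ≤ 2 * h * ‖x‖ * ‖u‖ * ‖v‖ :=
          (norm_inner_le_norm _ _).trans (mul_le_mul_of_nonneg_right
            ((ContinuousLinearMap.le_opNorm _ _).trans (mul_le_mul_of_nonneg_right
              (R.isPart.norm_blockdiag_le S (by positivity) hS) (norm_nonneg _))) (norm_nonneg _))
      _ = a * (2 * ‖x‖ * ‖u‖ * ‖v‖ / (2 * ‖x‖ * ‖u‖ * ‖v‖ + 1)) := by rw [hh']; field_simp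
      _ ≤ a * 1 := by
          refine mul_le_mul_of_nonneg_left ((div_le_one (by positivity)).2 (by linarith)) ha.le
      _ = a := mul_one a
  have comm_commutantM : ∀ b ∈ M.commutant, b * E = E * b := by
    intro b hb
    ext u
    refine ext_inner_right ℂ fun v => ?_
    simp only [op_mul_apply]
    rw [← ContinuousLinearMap.adjoint_inner_right, ← ContinuousLinearMap.star_eq_adjoint]
    refine tendsto_nhds_unique (hT u (star b v)) ((hT (b u) v).congr fun R => ?_)
    have hc : b * pinch R.c x = pinch R.c x * b := by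
      simp only [pinch, Finset.mul_sum, Finset.sum_mul]
      refine Finset.sum_congr rfl fun i _ => ?_
      exact (((comm_commutant (hA.le _ (R.isPart.mem i)) hb).mul_right
        (comm_commutant hxM hb)).mul_right (comm_commutant (hA.le _ (R.isPart.mem i)) hb)).eq
    rw [ContinuousLinearMap.star_eq_adjoint, ContinuousLinearMap.adjoint_inner_right,
      ← op_mul_apply, ← hc, op_mul_apply]
  refine ⟨U, E, hU, hA.mem (fun g hg => ?_) comm_commutantM, ?_, fun hx => ?_, hT⟩
  · have h1 := comm_sa (g + star g) (add_mem hg (star_mem hg : star g ∈ A)) (IsSelfAdjoint.add_star_self g)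
    have h2 := comm_sa (Complex.I • (g - star g)) (SMulMemClass.smul_mem _ (sub_mem hg (star_mem hg : star g ∈ A))) (by
      rw [IsSelfAdjoint, star_smul, star_sub, star_star, Complex.star_def, Complex.conj_I]
      module)
    rw [smul_mul_assoc, mul_smul_comm] at h2
    have h3 := smul_right_injective (H →L[ℂ] H) Complex.I_ne_zero h2
    rw [add_mul, mul_add] at h1
    rw [sub_mul, mul_sub] at h3
    have h4 : (2:ℂ) • (g * E) = (2:ℂ) • (E * g) := by
      rw [two_smul, two_smul]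
      have := congrArg₂ (· + ·) h1 h3
      simpa using this
    exact smul_right_injective (H →L[ℂ] H) two_ne_zero h4
  · refine ContinuousLinearMap.opNorm_le_bound _ (norm_nonneg _) fun u => ?_
    rcases eq_or_ne (E u) 0 with h0 | h0
    · rw [h0, norm_zero]; positivity
    · have h1 : ‖⟪E u, E u⟫_ℂ‖ ≤ ‖x‖ * ‖u‖ * ‖E u‖ := hE u (E u) ▸ hlb u (E u)
      rw [inner_self_eq_norm_sq_to_K] at h1
      simp [sq] at h1
      exact le_of_mul_le_mul_right h1 (norm_pos_iff.2 h0)
  · refine (ContinuousLinearMap.isSelfAdjoint_iff_isSymmetric).2 fun u v => ?_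
    show ⟪E u, v⟫_ℂ = ⟪u, E v⟫_ℂ
    refine tendsto_nhds_unique (hT u v) ?_
    have hc := (Complex.continuous_conj.tendsto _).comp (hT v u)
    rw [inner_conj_symm] at hc
    refine hc.congr fun R => ?_
    show starRingEnd ℂ ⟪pinch R.c x v, u⟫_ℂ = _
    rw [inner_conj_symm, sa_inner (pinch_selfAdjoint R.isPart hx)]

end Vale.Agent.P078.InM
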